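import Vale.Agent.Results.P025.AFull
import Vale.Agent.P025Z.Sec
import Vale.Agent.P025Z.Genus

/-!
# The local p-adic section conjecture for schemes and etale fundamental groups

`X` is a scheme, smooth of relative dimension one, proper and geometrically connected over a finite
extension `k` of `ℚ_p`, with `dim H^0(X, Ω^1) ≥ 2`. The fundamental groups are the automorphism
groups of the fibre functors on finite etale covers. All definitions are in `P025Z/Defs.lean`.
-/

open CategoryTheory AlgebraicGeometry

universe u

open Vale.Agent.P025Z in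
/-- **The local `p`-adic section conjecture.** -/
theorem Vale.Agent.Results.P025.AEtaleFundamentalGroup.result
    (p : ℕ) [Fact p.Prime] (k : Type u) [Field k] [Algebra ℚ_[p] k] [FiniteDimensional ℚ_[p] k]
    (X : Scheme.{u}) (f : X ⟶ Spec (CommRingCat.of k)) [SmoothOfRelativeDimension 1 f]
    [IsProper f] [GeometricallyConnected f] (hg : 2 ≤ genus f) :
    (IsHomeomorph (gal k) ∧ ∀ σ τ, gal k (σ * τ) = gal k σ * gal k τ) ∧
      Nonempty (BasePt f) ∧ ∀ x : BasePt f, Equivalence (Conj (x := x)) ∧
        ∃ e : RatPt f ≃ Quot (Conj (x := x)),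
          ∀ (a : RatPt f) (s : Section x), e a = Quot.mk Conj s ↔ IsSectionAt a s := by
  have : CharZero k := charZero_of_injective_algebraMap (algebraMap ℚ_[p] k).injective
  have := connected_of_geom f
  have := isIntegral_of_smooth f
  obtain ⟨e0, he0⟩ := Vale.Agent.Results.P025.AFull.result p k (KX f) (hyperbolic f hg)
  exact ⟨⟨gal_homeo k, gal_mul⟩, nonempty_basePt, fun x => ⟨conj_equiv x, transfer e0 he0 x⟩⟩
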